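import Vale.Agent.P267.H331.Emb
import Vale.Agent.P267.H62.LocFin
import Vale.Agent.P267.H338.Iface

/-! P267 / H331 (helper331), block D: every point of `Z` lies on an embedded projective line
contained in `Z`, from pole functions at the regular points (abstract form). -/

namespace Vale.Agent.P267.H331

open Set Filter Topology Metric
open scoped Manifold ContDiff Classical

noncomputable section

set_option linter.unusedSectionVars false

variable {M : Type*} [TopologicalSpace M] [ChartedSpace (Fin 2 → ℂ) M]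
  [IsManifold 𝓘(ℂ, Fin 2 → ℂ) 1 M]

theorem injective_mfderiv {g : ℂ → M} {z : ℂ}
    (hg : MDifferentiableAt 𝓘(ℂ, ℂ) 𝓘(ℂ, Fin 2 → ℂ) g z)
    (hd : deriv (fun y => chartAt (Fin 2 → ℂ) (g z) (g y)) z ≠ 0) :
    Function.Injective (mfderiv 𝓘(ℂ, ℂ) 𝓘(ℂ, Fin 2 → ℂ) g z) := by
  have h1 : mfderiv 𝓘(ℂ, ℂ) 𝓘(ℂ, Fin 2 → ℂ) g z =
      fderiv ℂ (fun y => chartAt (Fin 2 → ℂ) (g z) (g y)) z := by
    rw [hg.mfderiv]
    simp only [writtenInExtChartAt, extChartAt, mfld_simps, Function.comp_def, chartAt_self_eq,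
      fderivWithin_univ]
    rfl
  rw [h1]
  intro a b hab
  have h2 : ∀ c : ℂ, fderiv ℂ (fun y => chartAt (Fin 2 → ℂ) (g z) (g y)) z c =
      c • deriv (fun y => chartAt (Fin 2 → ℂ) (g z) (g y)) z := fun c => fderiv_eq_smul_deriv c
  exact smul_left_injective ℂ hd ((h2 a).symm.trans (Eq.trans hab (h2 b)))

variable {Z : Set M} {p : M} {Φ : M → ℂ} {c₀ : ℂ}

section emb

variable {g0 g1 : ℂ → M}

theorem IsSphere.mem0 (h : IsSphere Z p Φ g0 g1) (z : ℂ) : g0 z ∈ closure (Cmp Z p) := by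
  rw [h.ran]
  exact Or.inr ⟨z, rfl⟩

theorem IsSphere.eq1 (h : IsSphere Z p Φ g0 g1) (z : ℂ) (hz : z ≠ 0) : g1 z = g0 z⁻¹ := by
  rw [h.glue _ (inv_ne_zero hz), inv_inv]

theorem IsSphere.mem1 (h : IsSphere Z p Φ g0 g1) (z : ℂ) : g1 z ∈ closure (Cmp Z p) := by
  by_cases hz : z = 0
  · rw [hz, h.zero, h.ran]
    exact Or.inl rfl
  · rw [h.eq1 z hz]
    exact h.mem0 _

/-- the sphere as an embedded projective line -/
def IsSphere.toEmbP1 (h : IsSphere Z p Φ g0 g1)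
    (hsub : closure (Cmp Z p) ⊆ Z) (hΦ : ∀ q ∈ closure (Cmp Z p), q ≠ p → DiffAlong Z Φ q) :
    H338.EmbP1 M where
  f₀ := g0
  f₁ := g1
  holo₀ := h.hol0
  holo₁ := h.hol1
  glue := h.glue
  inj := h.inj
  ninf := by
    rintro ⟨z, hz⟩
    rw [h.zero] at hz
    exact h.ne z hz
  imm₀ := by
    intro w
    refine injective_mfderiv (h.hol0 w) ?_
    exact deriv_ne_of_diffAlong (Eventually.of_forall fun z => h.hol0 z)
        (Eventually.of_forall fun z => hsub (h.mem0 z)) (hΦ _ (h.mem0 w) (h.ne w)) (f := id)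
        analyticAt_id (by simp) (Eventually.of_forall fun z => h.inv z)
  imm₁ := by
    intro w
    refine injective_mfderiv (h.hol1 w) ?_
    by_cases hw : w = 0
    · rw [hw]
      obtain ⟨κ, hκ, l, hl, hl0, hl1, hl2⟩ := h.near
      exact g_deriv_ne_of_dsc hκ (Eventually.of_forall fun z => h.hol1 z) hl hl0
        (by rw [hl1]; exact one_ne_zero) hl2
    · refine deriv_ne_of_diffAlong (Eventually.of_forall fun z => h.hol1 z)
        (Eventually.of_forall fun z => hsub (h.mem1 z))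
        (hΦ _ (h.mem1 w) (by rw [h.eq1 w hw]; exact h.ne _))
        (f := fun z => z⁻¹) (analyticAt_inv hw) ?_ ?_
      · rw [deriv_inv]
        exact neg_ne_zero.2 (inv_ne_zero (pow_ne_zero 2 hw))
      · filter_upwards [isOpen_ne.mem_nhds hw] with z hz
        rw [h.eq1 z hz, h.inv]

theorem IsSphere.toEmbP1_image (h : IsSphere Z p Φ g0 g1)
    (hsub : closure (Cmp Z p) ⊆ Z) (hΦ : ∀ q ∈ closure (Cmp Z p), q ≠ p → DiffAlong Z Φ q) :
    (h.toEmbP1 hsub hΦ).image = closure (Cmp Z p) := by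
  change range g0 ∪ {g1 0} = _
  rw [h.ran, h.zero, union_singleton]

end emb

/-- a straightening chart gives a coordinate function -/
theorem RegChart.defines {T : Set M} {q : M} {κ : OpenPartialHomeomorph M (Fin 2 → ℂ)}
    (h : RegChart T q κ) : H62.Defines (Fin 2 → ℂ) (fun x => κ x 0) T q := by
  have hpr : ∀ y : Fin 2 → ℂ, MDifferentiableAt 𝓘(ℂ, Fin 2 → ℂ) 𝓘(ℂ, ℂ)
      (fun y : Fin 2 → ℂ => y 0) y := by
    intro y
    rw [mdifferentiableAt_iff_differentiableAt]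
    exact differentiableAt_apply _ _
  have hl : ∀ x ∈ κ.source, MDifferentiableAt 𝓘(ℂ, Fin 2 → ℂ) 𝓘(ℂ, ℂ) (fun x => κ x 0) x := by
    intro x hx
    exact MDifferentiableAt.comp (g := fun y : Fin 2 → ℂ => y 0) x (hpr _)
      ((h.hol x hx).mdifferentiableAt (κ.open_source.mem_nhds hx))
  refine ⟨⟨?_, ?_, ?_⟩, ?_⟩
  · filter_upwards [κ.open_source.mem_nhds h.mem] with x hx
    exact hl x hx
  · simp only [h.zero]
    rfl
  · intro h0
    -- the curve `s ↦ κ.symm (s, 0)`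
    have hvec : DifferentiableAt ℂ (fun s : ℂ => (![s, 0] : Fin 2 → ℂ)) 0 := by
      rw [differentiableAt_pi]
      intro i
      fin_cases i
      · exact differentiableAt_id
      · exact differentiableAt_const _
    have hv0 : (![(0 : ℂ), 0] : Fin 2 → ℂ) = 0 := RegChart.vec_zero
    have h1 : MDifferentiableAt 𝓘(ℂ, Fin 2 → ℂ) 𝓘(ℂ, Fin 2 → ℂ) κ.symm ![(0 : ℂ), 0] := by
      rw [hv0]
      exact (h.holSymm _ h.zero_mem).mdifferentiableAt (κ.open_target.mem_nhds h.zero_mem)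
    have h2 : MDifferentiableAt 𝓘(ℂ, ℂ) 𝓘(ℂ, Fin 2 → ℂ)
        (fun s : ℂ => κ.symm (![s, 0] : Fin 2 → ℂ)) 0 :=
      MDifferentiableAt.comp (g := κ.symm) (0 : ℂ) h1 hvec.mdifferentiableAt
    have hq : κ.symm (![(0 : ℂ), 0] : Fin 2 → ℂ) = q := by rw [hv0, h.symm_zero]
    have h3 : MDifferentiableAt 𝓘(ℂ, Fin 2 → ℂ) 𝓘(ℂ, ℂ) (fun x => κ x 0)
        (κ.symm (![(0 : ℂ), 0] : Fin 2 → ℂ)) := by
      rw [hq]
      exact hl q h.mem
    have h4 : mfderiv 𝓘(ℂ, ℂ) 𝓘(ℂ, ℂ) ((fun x => κ x 0) ∘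
        (fun s : ℂ => κ.symm (![s, 0] : Fin 2 → ℂ))) 0 = 0 := by
      rw [mfderiv_comp (0 : ℂ) h3 h2]
      have h5 : mfderiv 𝓘(ℂ, Fin 2 → ℂ) 𝓘(ℂ, ℂ) (fun x => κ x 0)
          (κ.symm (![(0 : ℂ), 0] : Fin 2 → ℂ)) = 0 := by
        rw [hq]
        exact h0
      rw [h5]
      exact ContinuousLinearMap.zero_comp _
    have h5 : ((fun x => κ x 0) ∘ (fun s : ℂ => κ.symm (![s, 0] : Fin 2 → ℂ))) =ᶠ[𝓝 0] id := by
      have h6 : ∀ᶠ s in 𝓝 (0 : ℂ), (![s, 0] : Fin 2 → ℂ) ∈ κ.target := by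
        have h7 : (![(0 : ℂ), 0] : Fin 2 → ℂ) ∈ κ.target := by
          rw [hv0]
          exact h.zero_mem
        exact hvec.continuousAt.eventually (κ.open_target.mem_nhds h7)
      filter_upwards [h6] with s hs
      simp only [Function.comp_apply, κ.right_inv hs]
      rfl
    rw [h5.mfderiv_eq, mfderiv_id] at h4
    have h7 := congrArg (fun L : ℂ →L[ℂ] ℂ => L 1) h4
    exact one_ne_zero (α := ℂ) h7
  · filter_upwards [κ.open_source.mem_nhds h.mem] with x hx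
    exact h.iff x hx

variable [T2Space M] [SecondCountableTopology M] [LocallyCompactSpace M]

/-- regular points are dense -/
theorem exists_reg (hcl : IsClosed Z) (hc : (Z \ Reg Z).Countable)
    (hg : ∀ x ∈ Z, ∃ g : M → ℂ, H62.HolNear (Fin 2 → ℂ) g x ∧ ∀ᶠ y in 𝓝 x, (y ∈ Z ↔ g y = 0))
    {x : M} (hx : x ∈ Z) {V : Set M} (hV : V ∈ 𝓝 x) : (V ∩ Reg Z).Nonempty := by
  by_contra hemp
  obtain ⟨O, hOV, hO, hxO⟩ := mem_nhds_iff.1 hV
  set T : Set M := Z ∩ O with hT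
  have hTc : T.Countable := by
    refine hc.mono ?_
    rintro y ⟨hy1, hy2⟩
    exact ⟨hy1, fun hh => hemp ⟨y, hOV hy2, hh⟩⟩
  have hloc : IsLocallyClosed T := hcl.isLocallyClosed.inter hO.isLocallyClosed
  have hlc : LocallyCompactSpace T := hloc.locallyCompactSpace
  have hTc' : Countable T := hTc.to_subtype
  have hTne : Nonempty T := ⟨⟨x, hx, hxO⟩⟩
  have hb : BaireSpace T := inferInstance
  obtain ⟨t, ht⟩ := nonempty_interior_of_iUnion_of_closed (X := T) (f := fun t : T => {t})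
    (fun t => isClosed_singleton) (iUnion_of_singleton T)
  obtain ⟨s, hs⟩ := ht
  have hst0 : s ∈ ({t} : Set T) := interior_subset hs
  have hst : s = t := hst0
  rw [hst, mem_interior_iff_mem_nhds, nhds_subtype, mem_comap] at hs
  obtain ⟨U, hU, hUs⟩ := hs
  obtain ⟨g, hg1, hg2⟩ := hg t t.2.1
  have hgt : g t = 0 := (hg2.self_of_nhds).1 t.2.1
  have h1 := H62.frequently_zero (M := M) (E := Fin 2 → ℂ) (by simp) hg1 hgt
  refine h1 ?_
  rw [eventually_nhdsWithin_iff]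
  filter_upwards [hU, hg2, hO.mem_nhds t.2.2] with y hy1 hy2 hy3 hyt hgy
  have h2 : y ∈ T := ⟨hy2.2 hgy, hy3⟩
  have h3 : (⟨y, h2⟩ : T) ∈ ({t} : Set T) := hUs hy1
  exact hyt (Subtype.ext_iff.1 h3)

/-- **Abstract covering statement.** -/
theorem exists_embP1 (hcl : IsClosed Z) (hc : (Z \ Reg Z).Countable)
    (hg : ∀ x ∈ Z, ∃ g : M → ℂ, H62.HolNear (Fin 2 → ℂ) g x ∧ (∀ᶠ y in 𝓝 x, (y ∈ Z ↔ g y = 0)) ∧
      ¬ ∀ᶠ y in 𝓝 x, g y = 0)
    (hpole : ∀ p ∈ Reg Z, ∃ (Φ : M → ℂ) (c₀ : ℂ), Amb Z p Φ c₀ ∧ ∀ q ∈ Z, q ≠ p → DiffAlong Z Φ q)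
    (hplane : ∀ p Φ c₀ G, Amb Z p Φ c₀ → ¬ IsPlane Z p Φ c₀ G) {x : M} (hx : x ∈ Z) :
    ∃ φ : H338.EmbP1 M, x ∈ φ.image ∧ φ.image ⊆ Z := by
  -- regular points
  have hreg : ∀ p ∈ Reg Z, ∃ φ : H338.EmbP1 M, p ∈ φ.image ∧ φ.image ⊆ Z ∧
      H62.IsCurve (Fin 2 → ℂ) φ.image := by
    intro p hp
    obtain ⟨Φ, c₀, hA, hΦ⟩ := hpole p hp
    have hsub := hA.closure_sub
    rcases hA.sphere_or_plane with ⟨g0, g1, hS⟩ | ⟨G, hG⟩
    · have hΦ' : ∀ q ∈ closure (Cmp Z p), q ≠ p → DiffAlong Z Φ q :=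
        fun q hq hqp => hΦ q (hsub hq) hqp
      have himg := hS.toEmbP1_image hsub hΦ'
      refine ⟨hS.toEmbP1 hsub hΦ', ?_, ?_, ?_⟩
      · rw [himg]
        exact subset_closure hA.p_mem
      · rw [himg]
        exact hsub
      · rw [himg]
        refine ⟨isClosed_closure, fun q hq => ?_⟩
        obtain ⟨κ, hκ⟩ := hS.embedded hsub hΦ' q hq
        exact ⟨_, hκ.defines⟩
    · exact absurd hG (hplane p Φ c₀ G hA)
  obtain ⟨g, hg1, hg2, hg3⟩ := hg x hx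
  obtain ⟨V, hV, hVf⟩ := H62.exists_nhds_finite (E := Fin 2 → ℂ) (by simp) hg1 hg3
    (Z := Z) (hg2.mono fun y hy => hy.1)
  set 𝒞 : Set (Set M) := {C | H62.IsCurve (Fin 2 → ℂ) C ∧ IsPreconnected C ∧ C ⊆ Z ∧
    (C ∩ V).Nonempty} with h𝒞
  set 𝒟 : Set (Set M) := {C | C ∈ 𝒞 ∧ ∃ φ : H338.EmbP1 M, φ.image = C} with h𝒟
  have h𝒟f : 𝒟.Finite := hVf.subset fun C hC => hC.1
  have hclU : IsClosed (⋃₀ 𝒟) := by
    rw [sUnion_eq_biUnion]
    exact h𝒟f.isClosed_biUnion fun C hC => hC.1.1.1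
  have hxU : x ∈ ⋃₀ 𝒟 := by
    rw [← hclU.closure_eq, mem_closure_iff_nhds]
    intro U hU
    obtain ⟨y, ⟨hyU, hyV⟩, hyR⟩ := exists_reg hcl hc
      (fun x hx => by
        obtain ⟨g, h1, h2, -⟩ := hg x hx
        exact ⟨g, h1, h2⟩) hx (inter_mem hU hV)
    obtain ⟨φ, hφ1, hφ2, hφ3⟩ := hreg y hyR
    exact ⟨y, hyU, φ.image, ⟨⟨hφ3, φ.isPreconnected_image, hφ2, y, hφ1, hyV⟩, φ, rfl⟩, hφ1⟩
  obtain ⟨C, ⟨hC1, φ, rfl⟩, hxC⟩ := hxU
  exact ⟨φ, hxC, hC1.2.2.1⟩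

/-- at a regular point the closure of its component is an embedded projective line -/
theorem exists_embP1_reg {p : M} {Φ : M → ℂ} {c₀ : ℂ} (hA : Amb Z p Φ c₀)
    (hΦ : ∀ q ∈ Z, q ≠ p → DiffAlong Z Φ q) (hplane : ∀ G, ¬ IsPlane Z p Φ c₀ G) :
    ∃ φ : H338.EmbP1 M, φ.image = closure (Cmp Z p) ∧ p ∈ φ.image ∧ φ.image ⊆ Z ∧
      ∀ q ∈ φ.image, ∃ κ, RegChart φ.image q κ := by
  have hsub := hA.closure_sub
  rcases hA.sphere_or_plane with ⟨g0, g1, hS⟩ | ⟨G, hG⟩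
  · have hΦ' : ∀ q ∈ closure (Cmp Z p), q ≠ p → DiffAlong Z Φ q :=
      fun q hq hqp => hΦ q (hsub hq) hqp
    have himg := hS.toEmbP1_image hsub hΦ'
    refine ⟨hS.toEmbP1 hsub hΦ', himg, ?_, ?_, ?_⟩
    · rw [himg]
      exact subset_closure hA.p_mem
    · rw [himg]
      exact hsub
    · rw [himg]
      exact hS.embedded hsub hΦ'
  · exact absurd hG (hplane G)

theorem not_isPlane_compact [CompactSpace M] {p : M} {Φ : M → ℂ} {c₀ : ℂ} {G : ℂ → M} :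
    ¬ IsPlane Z p Φ c₀ G := by
  intro h
  have h1 : Tendsto G (cocompact ℂ) (cocompact M) := h.lim
  have h2 : cocompact M = ⊥ := cocompact_eq_bot
  rw [h2] at h1
  have h3 : map G (cocompact ℂ) = ⊥ := le_bot_iff.1 h1
  rw [map_eq_bot_iff] at h3
  exact (inferInstance : (cocompact ℂ).NeBot).ne h3

end

end Vale.Agent.P267.H331
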