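import Vale.Agent.P267.H331.FLGlue
import Vale.Agent.P267.H509.CWFrame

/-! P267 / H331 (helper331), block D: local equations of `{α = 0}`, exclusion of planes from
`EndStatement`, embedded projective lines through all points of `{α = 0}`. -/

namespace Vale.Agent.P267.H331

open Set Filter Topology Metric
open scoped Manifold ContDiff Classical ComplexConjugate
open Vale.Agent.P267.FL Vale.Agent.P267.XT

noncomputable section

set_option linter.unusedSectionVars false
set_option linter.unusedVariables false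

variable {M : Type} [TopologicalSpace M] [ChartedSpace C2 M]
variable {ι : Type} [Fintype ι] [DecidableEq ι]

theorem act_smul' (A : Matrix ι ι ℂ) (c : ℂ) (v : EuclideanSpace ℂ ι) :
    LB.act A (c • v) = c • LB.act A v := by
  simp only [LB.act, WithLp.ofLp_smul, Matrix.mulVec_smul, WithLp.toLp_smul]

theorem act_add' (A : Matrix ι ι ℂ) (v w : EuclideanSpace ℂ ι) :
    LB.act A (v + w) = LB.act A v + LB.act A w := by
  simp only [LB.act, WithLp.ofLp_add, Matrix.mulVec_add, WithLp.toLp_add]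

/-- coefficient of a section with respect to a frame -/
def coef (f α : M → EuclideanSpace ℂ ι) (y : M) : ℂ :=
  ∑ k, conj (f y k) * α y k * (∑ j, conj (f y j) * f y j)⁻¹

theorem frame_sum_ne {v : EuclideanSpace ℂ ι} (hv : v ≠ 0) : ∑ j, conj (v j) * v j ≠ 0 := by
  intro h
  apply hv
  have h1 : ∑ j, ‖v j‖ ^ 2 = 0 := by
    have h2 : ((∑ j, ‖v j‖ ^ 2 : ℝ) : ℂ) = ∑ j, conj (v j) * v j := by
      push_cast
      refine Finset.sum_congr rfl fun j _ => ?_
      rw [mul_comm, Complex.mul_conj, Complex.normSq_eq_norm_sq]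
      push_cast
      rfl
    rw [h] at h2
    exact_mod_cast h2
  rw [Finset.sum_eq_zero_iff_of_nonneg (fun j _ => by positivity)] at h1
  ext j
  have := h1 j (Finset.mem_univ j)
  simpa using this

theorem coef_smul (L : LB M ι) {f α : M → EuclideanSpace ℂ ι} (hf : L.Sec f) (hα : L.Sec α) {y : M}
    (hy : f y ≠ 0) : α y = coef f α y • f y := by
  have hs : (L.P y).mulVec (f y) = f y := by
    have := hf y
    have h2 := congrArg WithLp.ofLp this
    exact h2
  have ha : (L.P y).mulVec (α y) = α y := by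
    have := hα y
    have h2 := congrArg WithLp.ofLp this
    exact h2
  have h0 : (f y : ι → ℂ) ≠ 0 := by
    intro h
    apply hy
    ext j
    exact congrFun h j
  have hP := H509.rank_one (L.herm y) (L.idem y) (L.tr y) hs h0
  rw [hP] at ha
  ext i
  have h3 := congrFun ha i
  rw [← h3]
  simp only [Matrix.mulVec, dotProduct, Matrix.vecMulVec_apply, coef, PiLp.smul_apply, smul_eq_mul,
    Finset.sum_mul]
  refine Finset.sum_congr rfl fun k _ => ?_
  rw [div_eq_mul_inv]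
  ring

variable [IsManifold 𝓘(ℂ, C2) ω M]

theorem At0.proj {n : WithTop ℕ∞} {f : M → EuclideanSpace ℂ ι} {x : M} (h : At0 n 0 f x) (k : ι) :
    At0 n 0 (fun y => f y k) x :=
  h.clm (EuclideanSpace.proj (𝕜 := ℂ) k)

theorem coef_at {n : WithTop ℕ∞} {f α : M → EuclideanSpace ℂ ι} {x : M} (hf : At0 n 0 f x)
    (hα : At0 n 0 α x) (hx : f x ≠ 0) : At0 n 0 (coef f α) x := by
  have h1 : At0 n 0 (fun y => ∑ j, conj (f y j) * f y j) x :=
    At0.sum fun j _ => ((At0.proj hf j).conj).mul (At0.proj hf j)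
  have h2 := h1.inv0 (frame_sum_ne hx)
  exact At0.sum fun k _ => (((At0.proj hf k).conj).mul (At0.proj hα k)).mul h2

/-- the coefficient of a holomorphic section with respect to a holomorphic frame is holomorphic -/
theorem coef_dbar (L : LB M ι) {a : M → Fin 2 → ℂ} {f α : M → EuclideanSpace ℂ ι} (hf : L.Sec f)
    (hα : L.Sec α) (hfr : Reg0 ∞ 0 f) (hαr : Reg0 ∞ 0 α) {x : M}
    (hx : ∀ᶠ y in 𝓝 x, f y ≠ 0) (hf0 : LB.db0 L a 0 f x = 0) (hα0 : ∀ i, LB.db0 L a 0 α x i = 0) :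
    dbar0 0 (coef f α) x = 0 := by
  have hfx : f x ≠ 0 := hx.self_of_nhds
  have hc : At0 1 0 (coef f α) x := (coef_at (hfr.at x) (hαr.at x) hfx).of_le (by simp)
  have hf1 : At0 1 0 f x := (hfr.at x).of_le (by simp)
  have heq : α =ᶠ[𝓝 x] fun y => coef f α y • f y := by
    filter_upwards [hx] with y hy
    exact coef_smul L hf hα hy
  funext i
  have h1 := hα0 i
  rw [LB.db0, dbar0_congr heq, dbar0_smul hc hf1 i, act_add', act_smul', act_smul', hf x,
    coef_smul L hf hα hfx] at h1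
  have h2 := congrFun hf0 i
  rw [LB.db0] at h2
  have h3 : dbar0 0 (coef f α) x i • f x = 0 := by
    have h4 : dbar0 0 (coef f α) x i • f x +
        coef f α x • (LB.act (L.P x) (dbar0 0 f x i) + a x i • f x) = 0 := by
      rw [← h1, smul_add, smul_smul, smul_smul, mul_comm (coef f α x) (a x i)]
      abel
    rw [h2] at h4
    simpa using h4
  exact (smul_eq_zero.1 h3).resolve_right hfx

/-- local holomorphic frames (as in `H378.HasFrames`) -/
def Frames (L : LB M ι) (a : M → Fin 2 → ℂ) : Prop :=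
  ∀ x, ∃ f : M → EuclideanSpace ℂ ι, Reg0 ∞ 0 f ∧ L.Sec f ∧
    ∀ᶠ y in 𝓝 x, f y ≠ 0 ∧ LB.db0 L a 0 f y = 0

/-- local equation of the zero set -/
theorem exists_local (L : LB M ι) {a : M → Fin 2 → ℂ} (hF : Frames L a)
    {α : M → EuclideanSpace ℂ ι} (hα : L.Sec α) (hαr : Reg0 ∞ 0 α)
    (hα0 : ∀ x i, LB.db0 L a 0 α x i = 0) (x : M) :
    ∃ g : M → ℂ, H62.HolNear C2 g x ∧ ∀ᶠ y in 𝓝 x, (α y = 0 ↔ g y = 0) := by
  obtain ⟨f, hfr, hf, hev⟩ := hF x
  refine ⟨coef f α, ?_, ?_⟩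
  · filter_upwards [eventually_eventually_nhds.2 hev] with y hy
    have hy1 := hy.self_of_nhds
    refine mdiff_of_dbar0 ((coef_at (hfr.at y) (hαr.at y) hy1.1).of_le (by simp)) ?_
    exact coef_dbar L hf hα hfr hαr (hy.mono fun z hz => hz.1) hy1.2 (hα0 y)
  · filter_upwards [hev] with y hy
    constructor
    · intro h
      simp [coef, h]
    · intro h
      rw [coef_smul L hf hα hy.1, h, zero_smul]

/-- deck transformations are holomorphic -/
theorem sh_mdiff (D : XTData M) (k : ℤ) (x : M) :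
    MDifferentiableAt 𝓘(ℂ, C2) 𝓘(ℂ, C2) (D.sh k) x := by
  rw [mdifferentiableAt_iff]
  refine ⟨(D.continuous_sh k).continuousAt, ?_⟩
  have h1 : DifferentiableAt ℂ (fun z => chartAt C2 (D.sh k x) (D.sh k ((chartAt C2 x).symm z)))
      (chartAt C2 x x) := by
    have h2 : (fun z => chartAt C2 (D.sh k x) (D.sh k ((chartAt C2 x).symm z)))
        =ᶠ[𝓝 (chartAt C2 x x)] id := by
      have h3 := (tendsto_symm_nhds (mem_chart_source C2 x)).eventually (D.chart_sh k x)
      filter_upwards [h3, (chartAt C2 x).open_target.mem_nhds (mem_chart_target C2 x)] with z h4 h5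
      rw [h4, (chartAt C2 x).right_inv h5]
      rfl
    exact differentiableAt_id.congr_of_eventuallyEq h2
  have h2 := h1.differentiableWithinAt (s := univ)
  simpa only [writtenInExtChartAt, extChartAt, mfld_simps, Function.comp_def] using h2

/-- identity theorem along a holomorphic curve -/
theorem curve_identity {N : ℂ → M} (hN : MDifferentiable 𝓘(ℂ, ℂ) 𝓘(ℂ, C2) N)
    {A : Set M} (hA : ∀ x, ∃ g : M → ℂ, H62.HolNear C2 g x ∧ ∀ᶠ y in 𝓝 x, (y ∈ A ↔ g y = 0))
    {z₁ : ℂ} (h1 : ∀ᶠ z in 𝓝 z₁, N z ∈ A) (z : ℂ) : N z ∈ A := by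
  have hloc : ∀ z₀ : ℂ, ∃ f : ℂ → ℂ, AnalyticAt ℂ f z₀ ∧ ∀ᶠ z in 𝓝 z₀, (N z ∈ A ↔ f z = 0) := by
    intro z₀
    obtain ⟨g, hg1, hg2⟩ := hA (N z₀)
    refine ⟨fun z => g (N z), ?_, (hN z₀).continuousAt.eventually hg2⟩
    rw [Complex.analyticAt_iff_eventually_differentiableAt]
    filter_upwards [(hN z₀).continuousAt.eventually hg1] with z hz
    exact mdifferentiableAt_iff_differentiableAt.1 (MDifferentiableAt.comp (g := g) z hz (hN z))
  set O : Set ℂ := {z | ∀ᶠ w in 𝓝 z, N w ∈ A} with hO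
  have hOo : IsOpen O := by
    rw [isOpen_iff_mem_nhds]
    intro w hw
    exact eventually_eventually_nhds.2 hw
  have hOc : IsClosed O := by
    rw [← isOpen_compl_iff, isOpen_iff_mem_nhds]
    intro w hw
    obtain ⟨f, hf1, hf2⟩ := hloc w
    rcases hf1.eventually_eq_zero_or_eventually_ne_zero with h0 | h0
    · exfalso
      apply hw
      filter_upwards [h0, hf2] with y hy1 hy2
      exact hy2.2 hy1
    · rw [eventually_nhdsWithin_iff] at h0
      filter_upwards [h0.and hf2, eventually_eventually_nhds.2 (h0.and hf2)] with y hy1 hy2 hyO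
      by_cases hyw : y = w
      · rw [hyw] at hyO
        exact hw hyO
      · exact hy1.1 hyw (hy1.2.1 hyO.self_of_nhds)
  have hOu : O = univ := IsClopen.eq_univ ⟨hOc, hOo⟩ ⟨z₁, h1⟩
  have hz : z ∈ O := by rw [hOu]; trivial
  exact hz.self_of_nhds


/-! ### no planes -/

/-- **CHEAP-C3**: the second alternative is impossible -/
theorem no_plane (D : XTData M) {α : M → EuclideanSpace ℂ ι} (hE : H692.EndStatement D α)
    (hout : ∃ R : ℝ, ∀ x, R ≤ D.f x → α x ≠ 0)
    (hA : ∀ x, ∃ g : M → ℂ, H62.HolNear C2 g x ∧ ∀ᶠ y in 𝓝 x, (α y = 0 ↔ g y = 0))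
    {p : M} {Φ : M → ℂ} {c₀ : ℂ} {G : ℂ → M} (hcl : closure (Cmp (Zs α) p) ⊆ Zs α)
    (hG : IsPlane (Zs α) p Φ c₀ G) : False := by
  obtain ⟨k, hk, hE⟩ := hE
  obtain ⟨R, hR⟩ := hout
  have hGZ : ∀ z, α (G z) = 0 := by
    intro z
    have h1 : G z ∈ closure (Cmp (Zs α) p) := by
      rw [hG.ran]
      exact ⟨z, rfl⟩
    exact hcl h1
  set ψ : ℂ → M := fun t => G t⁻¹ with hψ
  have hψd : ∀ t, t ≠ 0 → MDifferentiableAt 𝓘(ℂ, ℂ) 𝓘(ℂ, C2) ψ t := by
    intro t ht
    exact MDifferentiableAt.comp (g := G) t (hG.hol _) (differentiableAt_inv ht).mdifferentiableAt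
  have h1 : ∀ t : ℂ, t ≠ 0 → ‖t‖ < 1 → ContinuousAt ψ t ∧
      DifferentiableAt ℂ (fun s => chartAt C2 (ψ t) (ψ s)) t ∧ α (ψ t) = 0 := by
    intro t ht _
    refine ⟨(hψd t ht).continuousAt, ?_, hGZ _⟩
    have h2 : MDifferentiableAt 𝓘(ℂ, C2) 𝓘(ℂ, C2) (chartAt C2 (ψ t)) (ψ t) :=
      mdifferentiableAt_atlas (chart_mem_atlas _ _) (mem_chart_source _ _)
    have h3 : MDifferentiableAt 𝓘(ℂ, ℂ) 𝓘(ℂ, C2) (fun s => chartAt C2 (ψ t) (ψ s)) t :=
      MDifferentiableAt.comp (g := chartAt C2 (ψ t)) t h2 (hψd t ht)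
    exact mdifferentiableAt_iff_differentiableAt.1 h3
  have hinv : Tendsto (fun t : ℂ => t⁻¹) (𝓝[≠] 0) (cocompact ℂ) := by
    rw [← cobounded_eq_cocompact]
    exact tendsto_inv₀_nhdsNE_zero
  have h2 : Tendsto (fun t => D.f (ψ t)) (𝓝[≠] 0) atBot := by
    have h3 : Tendsto ψ (𝓝[≠] 0) (cocompact M) := hG.lim.comp hinv
    rw [tendsto_atBot]
    intro b
    filter_upwards [h3 (D.f_proper b R).compl_mem_cocompact] with t ht
    by_contra hcon
    push Not at hcon
    apply ht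
    refine ⟨hcon.le, ?_⟩
    by_contra hcon2
    push Not at hcon2
    exact hR (ψ t) hcon2.le (hGZ _)
  have h3 := hE ψ 1 one_pos h1 h2
  obtain ⟨j, hj⟩ := exists_nat_ge ((R - D.f p) / k)
  have hk' : (0 : ℝ) < k := by exact_mod_cast hk
  have hj' : R ≤ D.f p + (j : ℝ) * k := by
    rw [div_le_iff₀ hk'] at hj
    linarith
  have h4 := h3 j
  rw [eventually_nhdsWithin_iff, Metric.eventually_nhds_iff_ball] at h4
  obtain ⟨ε, hε, h4⟩ := h4
  set N : ℂ → M := fun z => D.sh (j * k) (G z) with hN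
  have hNd : MDifferentiable 𝓘(ℂ, ℂ) 𝓘(ℂ, C2) N := fun z =>
    MDifferentiableAt.comp (g := D.sh (j * k)) z (sh_mdiff D _ _) (hG.hol z)
  have h5 : ∀ᶠ z in 𝓝 (((2 / ε : ℝ)) : ℂ), N z ∈ Zs α := by
    have h6 : ∀ᶠ z in 𝓝 (((2 / ε : ℝ)) : ℂ), 1 / ε < ‖z‖ := by
      refine continuousAt_const.eventually_lt continuous_norm.continuousAt ?_
      rw [Complex.norm_real, Real.norm_eq_abs, abs_of_pos (by positivity)]
      exact div_lt_div_of_pos_right (by norm_num) hε
    filter_upwards [h6] with z hz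
    have hz0 : z ≠ 0 := by
      rintro rfl
      rw [norm_zero] at hz
      have : 0 < 1 / ε := by positivity
      linarith
    have h7 := h4 z⁻¹ (by
      rw [mem_ball_zero_iff, norm_inv, inv_lt_comm₀ (norm_pos_iff.2 hz0) hε, ← one_div]
      exact hz) (inv_ne_zero hz0)
    simp only [hψ, inv_inv] at h7
    exact h7
  have h6 := curve_identity hNd (A := Zs α) hA h5 0
  have h7 : α (N 0) = 0 := h6
  refine hR (N 0) ?_ h7
  rw [hN]
  simp only [hG.zero, D.f_sh]
  push_cast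
  exact hj'

theorem sigmaCompact (D : XTData M) : SigmaCompactSpace M := by
  refine ⟨⟨fun n : ℕ => D.f ⁻¹' Icc (-(n : ℝ)) n, fun n => D.f_proper _ _, ?_⟩⟩
  rw [eq_univ_iff_forall]
  intro x
  obtain ⟨n, hn⟩ := exists_nat_ge |D.f x|
  rw [mem_iUnion]
  exact ⟨n, abs_le.1 hn⟩

/-- **Curves on the infinite cyclic cover**, from the frames and the countability of the singular
set. -/
theorem curve_core [T2Space M] (D : XTData M) (L : LB M ι) {a : M → Fin 2 → ℂ}
    {α : M → EuclideanSpace ℂ ι} (hF : Frames L a) (hαr : Reg0 ∞ 0 α) (hα : L.Sec α)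
    (hα0 : ∀ x i, LB.db0 L a 0 α x i = 0) (hdense : Dense {x | α x ≠ 0})
    (hout : ∃ R : ℝ, ∀ x, R ≤ D.f x → α x ≠ 0)
    (hc : (Zs α \ Reg (Zs α)).Countable)
    (hP : H692.PoleStatement D L α) (hE : H692.EndStatement D α) :
    ∀ x, α x = 0 → ∃ φ : H338.EmbP1 M, x ∈ φ.image ∧ ∀ y ∈ φ.image, α y = 0 := by
  have hlc : LocallyCompactSpace M := ChartedSpace.locallyCompactSpace C2 M
  have hsig : SigmaCompactSpace M := sigmaCompact D
  have hsc : SecondCountableTopology M := ChartedSpace.secondCountable_of_sigmaCompact C2 M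
  have hA := exists_local L hF hα hαr hα0
  have hcl : IsClosed (Zs α) := isClosed_singleton.preimage hαr.continuous
  intro x hx
  obtain ⟨φ, h1, h2⟩ := exists_embP1 (Z := Zs α) hcl hc (fun x hx => by
      obtain ⟨g, hg1, hg2⟩ := hA x
      refine ⟨g, hg1, hg2, fun hcon => ?_⟩
      have h3 : ∀ᶠ y in 𝓝 x, α y = 0 := by
        filter_upwards [hcon, hg2] with y hy1 hy2
        exact hy2.2 hy1
      obtain ⟨y, hy1, hy2⟩ := mem_closure_iff_nhds.1 (hdense x) _ h3
      exact hy2 hy1)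
    (fun p hp => exists_amb (D := D) (L := L) hαr hout hP hc hp)
    (fun p Φ c₀ G hAmb hG => no_plane D hE hout hA hAmb.closure_sub hG) (x := x) hx
  exact ⟨φ, h1, fun y hy => h2 hy⟩

end

end Vale.Agent.P267.H331
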