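import Vale.Agent.P267.H331.Cover
import Vale.Agent.P267.H399.Calc3
import Vale.Agent.P267.H692.Iface

/-! P267 / H331 (helper331), block D: pole functions on the infinite cyclic cover from
`PoleStatement`. -/

namespace Vale.Agent.P267.H331

open Set Filter Topology Metric
open scoped Manifold ContDiff Classical ComplexConjugate
open Vale.Agent.P267.FL Vale.Agent.P267.XT

noncomputable section

set_option linter.unusedSectionVars false
set_option linter.unusedVariables false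

variable {M : Type} [TopologicalSpace M] [ChartedSpace C2 M] [IsManifold 𝓘(ℂ, C2) ω M]

/-! ### holomorphic functions: manifold derivative and `∂̄` -/

theorem holAt_of_mdiff {s : M → ℂ} {y : M}
    (h : ∀ᶠ x in 𝓝 y, MDifferentiableAt 𝓘(ℂ, C2) 𝓘(ℂ, ℂ) s x) : HolAt 0 s y := by
  obtain ⟨O, hO, hOo, hyO⟩ := _root_.eventually_nhds_iff.1 h
  set e := chartAt C2 y with he
  have hy := mem_chart_source C2 y
  rw [HolAt, LB.loc0_zero]
  refine P281.MF.analyticAt_of_differentiableOn (U := e.target ∩ e.symm ⁻¹' O)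
    (e.symm.isOpen_inter_preimage hOo) ?_ ⟨e.map_source hy, ?_⟩
  · rintro z ⟨hz1, hz2⟩
    have h1 : MDifferentiableAt 𝓘(ℂ, C2) 𝓘(ℂ, C2) e.symm z :=
      mdifferentiableAt_atlas_symm (chart_mem_atlas _ _) hz1
    have h2 : MDifferentiableAt 𝓘(ℂ, C2) 𝓘(ℂ, ℂ) s (e.symm z) := hO _ hz2
    have h3 : MDifferentiableAt 𝓘(ℂ, C2) 𝓘(ℂ, ℂ) (s ∘ e.symm) z := MDifferentiableAt.comp z h2 h1
    exact (mdifferentiableAt_iff_differentiableAt.1 h3).differentiableWithinAt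
  · rw [mem_preimage, e.left_inv hy]
    exact hyO

theorem mdiff_of_dbar0 {s : M → ℂ} {x : M} (h : At0 1 0 s x) (h0 : dbar0 0 s x = 0) :
    MDifferentiableAt 𝓘(ℂ, C2) 𝓘(ℂ, ℂ) s x := by
  have h1 : DifferentiableAt ℂ (loc0 0 (chartAt C2 x) s) (chartAt C2 x x) :=
    (differentiableAt_complex_iff (h.diff le_rfl)).2 fun j => congrFun h0 j
  rw [mdifferentiableAt_iff]
  refine ⟨h.continuousAt, ?_⟩
  rw [LB.loc0_zero] at h1
  have h2 := h1.differentiableWithinAt (s := univ)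
  simpa only [writtenInExtChartAt, extChartAt, mfld_simps, Function.comp_def, chartAt_self_eq] using h2

theorem HolAt.mdiff {s : M → ℂ} {x : M} (h : HolAt 0 s x) :
    MDifferentiableAt 𝓘(ℂ, C2) 𝓘(ℂ, ℂ) s x :=
  mdiff_of_dbar0 h.at0 (HolAt.dbar0 h)

/-- coordinates of a straightening chart are holomorphic -/
theorem RegChart.holAt {Z : Set M} {q : M} {κ : OpenPartialHomeomorph M (Fin 2 → ℂ)}
    (h : RegChart Z q κ) {y : M} (hy : y ∈ κ.source) (i : Fin 2) : HolAt 0 (fun x => κ x i) y := by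
  refine holAt_of_mdiff ?_
  filter_upwards [κ.open_source.mem_nhds hy] with x hx
  have hpr : MDifferentiableAt 𝓘(ℂ, Fin 2 → ℂ) 𝓘(ℂ, ℂ) (fun y : Fin 2 → ℂ => y i) (κ x) := by
    rw [mdifferentiableAt_iff_differentiableAt]
    exact differentiableAt_apply _ _
  exact MDifferentiableAt.comp (g := fun y : Fin 2 → ℂ => y i) x hpr
      ((h.hol x hx).mdifferentiableAt (κ.open_source.mem_nhds hx))

/-! ### the model form -/

/-- cut-off function -/
def cutf (r : ℝ) (hr : 0 < r) : ContDiffBump (0 : ℂ) := ⟨r / 4, r / 2, by positivity, by linarith⟩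

/-- cut-off function, complex valued -/
def chi (r : ℝ) (hr : 0 < r) (t : ℂ) : ℂ := ((cutf r hr t : ℝ) : ℂ)

theorem chi_contDiff (r : ℝ) (hr : 0 < r) : ContDiff ℝ ∞ (chi r hr) :=
  Complex.ofRealCLM.contDiff.comp (cutf r hr).contDiff

theorem chi_one {r : ℝ} (hr : 0 < r) {t : ℂ} (ht : ‖t‖ < r / 4) : chi r hr t = 1 := by
  rw [chi, (cutf r hr).one_of_mem_closedBall (by
    change t ∈ closedBall 0 (r / 4)
    rw [mem_closedBall, dist_zero_right]
    exact ht.le)]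
  simp

theorem chi_zero {r : ℝ} (hr : 0 < r) {t : ℂ} (ht : r / 2 ≤ ‖t‖) : chi r hr t = 0 := by
  rw [chi, (cutf r hr).zero_of_le_dist (by
    change r / 2 ≤ dist t 0
    rw [dist_zero_right]
    exact ht)]
  simp

variable {Z : Set M} {p : M} {κ : OpenPartialHomeomorph M (Fin 2 → ℂ)}

/-- the function `χ(κ₁)/κ₁` -/
def wf (κ : OpenPartialHomeomorph M (Fin 2 → ℂ)) (r : ℝ) (hr : 0 < r) (x : M) : ℂ :=
  chi r hr (κ x 1) * (κ x 1)⁻¹

/-- the form `χ(κ₀) ∂̄(χ(κ₁)/κ₁)` -/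
def gf (κ : OpenPartialHomeomorph M (Fin 2 → ℂ)) (r : ℝ) (hr : 0 < r) (x : M) (i : Fin 2) : ℂ :=
  if x ∈ κ.source ∧ κ x 1 ≠ 0 then chi r hr (κ x 0) • dbar0 0 (wf κ r hr) x i else 0

/-- the function `χ(κ₀) χ(κ₁)/κ₁` -/
def vf (κ : OpenPartialHomeomorph M (Fin 2 → ℂ)) (r : ℝ) (hr : 0 < r) (x : M) : ℂ :=
  if x ∈ κ.source then chi r hr (κ x 0) * wf κ r hr x else 0

/-- the support -/
def Kf (κ : OpenPartialHomeomorph M (Fin 2 → ℂ)) (r : ℝ) : Set M :=
  κ.symm '' closedBall (0 : Fin 2 → ℂ) (r / 2)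

section model

theorem Kf_compact {r : ℝ} (hr : 0 < r) (hrt : ball (0 : Fin 2 → ℂ) r ⊆ κ.target) :
    IsCompact (Kf κ r) := by
  refine (isCompact_closedBall _ _).image_of_continuousOn (κ.symm.continuousOn.mono ?_)
  intro y hy
  exact hrt (closedBall_subset_ball (by linarith) hy)

theorem Kf_source {r : ℝ} (hr : 0 < r) (hrt : ball (0 : Fin 2 → ℂ) r ⊆ κ.target) :
    Kf κ r ⊆ κ.source := by
  rintro _ ⟨y, hy, rfl⟩
  exact κ.map_target (hrt (closedBall_subset_ball (by linarith) hy))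

theorem not_Kf {r : ℝ} (hr : 0 < r) {x : M} (hx : x ∈ κ.source) (hxK : x ∉ Kf κ r) :
    r / 2 < ‖κ x 0‖ ∨ r / 2 < ‖κ x 1‖ := by
  by_contra hcon
  push Not at hcon
  apply hxK
  refine ⟨κ x, ?_, κ.left_inv hx⟩
  rw [mem_closedBall, dist_zero_right, pi_norm_le_iff_of_nonneg (by positivity)]
  intro i
  fin_cases i
  · exact hcon.1
  · exact hcon.2

theorem wf_at (hκ : RegChart Z p κ) {r : ℝ} (hr : 0 < r) {x : M} (hx : x ∈ κ.source)
    (h1 : κ x 1 ≠ 0) : At0 ∞ 0 (wf κ r hr) x := by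
  have h2 : At0 ∞ 0 (fun x => κ x 1) x := (hκ.holAt hx 1).at0
  exact (h2.comp (g := chi r hr) (chi_contDiff r hr).contDiffAt).mul (h2.inv0 h1)

theorem chi0_at (hκ : RegChart Z p κ) {r : ℝ} (hr : 0 < r) {x : M} (hx : x ∈ κ.source) :
    At0 ∞ 0 (fun x => chi r hr (κ x 0)) x := by
  have h2 : At0 ∞ 0 (fun x => κ x 0) x := (hκ.holAt hx 0).at0
  exact h2.comp (g := chi r hr) (chi_contDiff r hr).contDiffAt

theorem continuousAt_coord {x : M} (hx : x ∈ κ.source) (i : Fin 2) :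
    ContinuousAt (fun x => κ x i) x :=
  (continuous_apply i).continuousAt.comp (κ.continuousAt hx)

/-- near a point with `κ₁ = 0` the function `wf` is `1/κ₁` off `{κ₁ = 0}` -/
theorem dbar0_wf_zero (hκ : RegChart Z p κ) {r : ℝ} (hr : 0 < r) {x : M} (hx : x ∈ κ.source)
    (h1 : κ x 1 ≠ 0) (h2 : ‖κ x 1‖ < r / 4) : dbar0 0 (wf κ r hr) x = 0 := by
  have h3 : HolAt 0 (fun x => κ x 1) x := hκ.holAt hx 1
  have h4 : wf κ r hr =ᶠ[𝓝 x] fun y => (κ y 1)⁻¹ := by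
    have h5 : ∀ᶠ y in 𝓝 x, ‖κ y 1‖ < r / 4 :=
      (continuousAt_coord hx 1).norm.eventually_lt continuousAt_const h2
    filter_upwards [h5] with y hy
    rw [wf, chi_one hr hy, one_mul]
  rw [dbar0_congr h4]
  funext i
  have h6 := dbar0_inv (κ := 0) h3.at0 h1 i
  rw [neg_zero] at h6
  rw [h6, HolAt.dbar0 h3]
  simp

theorem dbar0_wf_zero' (hκ : RegChart Z p κ) {r : ℝ} (hr : 0 < r) {x : M} (hx : x ∈ κ.source)
    (h2 : r / 2 < ‖κ x 1‖) : dbar0 0 (wf κ r hr) x = 0 := by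
  have h4 : wf κ r hr =ᶠ[𝓝 x] fun y => 0 := by
    have h5 : ∀ᶠ y in 𝓝 x, r / 2 < ‖κ y 1‖ :=
      continuousAt_const.eventually_lt (continuousAt_coord hx 1).norm h2
    filter_upwards [h5] with y hy
    rw [wf, chi_zero hr hy.le, zero_mul]
  rw [dbar0_congr h4]
  simp

theorem gf_off (hκ : RegChart Z p κ) {r : ℝ} (hr : 0 < r) {x : M} (hx : x ∉ Kf κ r) :
    gf κ r hr x = 0 := by
  funext i
  rw [gf]
  split_ifs with h
  · rcases not_Kf hr h.1 hx with h1 | h1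
    · rw [chi_zero hr h1.le, zero_smul]
      rfl
    · rw [dbar0_wf_zero' hκ hr h.1 h1]
      simp
  · rfl

theorem vf_off {r : ℝ} (hr : 0 < r) {x : M} (hx : x ∉ Kf κ r) : vf κ r hr x = 0 := by
  rw [vf]
  split_ifs with h
  · rcases not_Kf hr h hx with h1 | h1
    · rw [chi_zero hr h1.le, zero_mul]
    · rw [wf, chi_zero hr h1.le, zero_mul, mul_zero]
  · rfl

variable [T2Space M]

theorem gf_off_ev (hκ : RegChart Z p κ) {r : ℝ} (hr : 0 < r)
    (hrt : ball (0 : Fin 2 → ℂ) r ⊆ κ.target) {x : M} (hx : x ∉ Kf κ r) :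
    gf κ r hr =ᶠ[𝓝 x] fun _ _ => 0 := by
  filter_upwards [(Kf_compact hr hrt).isClosed.isOpen_compl.mem_nhds hx] with y hy
  exact gf_off hκ hr hy

theorem vf_off_ev {r : ℝ} (hr : 0 < r)
    (hrt : ball (0 : Fin 2 → ℂ) r ⊆ κ.target) {x : M} (hx : x ∉ Kf κ r) :
    vf κ r hr =ᶠ[𝓝 x] fun _ => 0 := by
  filter_upwards [(Kf_compact hr hrt).isClosed.isOpen_compl.mem_nhds hx] with y hy
  exact vf_off hr hy

/-- near a point with `κ₁ = 0` -/
theorem gf_zero_ev (hκ : RegChart Z p κ) {r : ℝ} (hr : 0 < r) {x : M} (hx : x ∈ κ.source)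
    (h1 : κ x 1 = 0) : gf κ r hr =ᶠ[𝓝 x] fun _ _ => 0 := by
  have h5 : ∀ᶠ y in 𝓝 x, ‖κ y 1‖ < r / 4 := by
    refine (continuousAt_coord hx 1).norm.eventually_lt continuousAt_const ?_
    rw [h1, norm_zero]
    positivity
  filter_upwards [h5, κ.open_source.mem_nhds hx] with y hy1 hy2
  funext i
  rw [gf]
  split_ifs with h
  · rw [dbar0_wf_zero hκ hr h.1 h.2 hy1]
    simp
  · rfl

/-- near a point with `κ₁ ≠ 0` -/
theorem gf_ne_ev {r : ℝ} (hr : 0 < r) {x : M} (hx : x ∈ κ.source)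
    (h1 : κ x 1 ≠ 0) : gf κ r hr =ᶠ[𝓝 x] fun y i => chi r hr (κ y 0) • dbar0 0 (wf κ r hr) y i := by
  filter_upwards [(continuousAt_coord hx 1).eventually_ne h1, κ.open_source.mem_nhds hx] with y hy1 hy2
  funext i
  rw [gf, if_pos ⟨hy2, hy1⟩]

/-- near a point with `κ₁ ≠ 0`, `κ₀ = 0` -/
theorem gf_ne_ev' {r : ℝ} (hr : 0 < r) {x : M} (hx : x ∈ κ.source)
    (h1 : κ x 1 ≠ 0) (h0 : κ x 0 = 0) : gf κ r hr =ᶠ[𝓝 x] dbar0 0 (wf κ r hr) := by
  have h5 : ∀ᶠ y in 𝓝 x, ‖κ y 0‖ < r / 4 := by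
    refine (continuousAt_coord hx 0).norm.eventually_lt continuousAt_const ?_
    rw [h0, norm_zero]
    positivity
  filter_upwards [gf_ne_ev hr hx h1, h5] with y hy1 hy2
  rw [hy1, chi_one hr hy2]
  funext i
  rw [one_smul]

theorem vf_ev' {r : ℝ} (hr : 0 < r) {x : M} (hx : x ∈ κ.source)
    (h0 : κ x 0 = 0) : vf κ r hr =ᶠ[𝓝 x] wf κ r hr := by
  have h5 : ∀ᶠ y in 𝓝 x, ‖κ y 0‖ < r / 4 := by
    refine (continuousAt_coord hx 0).norm.eventually_lt continuousAt_const ?_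
    rw [h0, norm_zero]
    positivity
  filter_upwards [κ.open_source.mem_nhds hx, h5] with y hy1 hy2
  rw [vf, if_pos hy1, chi_one hr hy2, one_mul]

theorem gf_reg (hκ : RegChart Z p κ) {r : ℝ} (hr : 0 < r)
    (hrt : ball (0 : Fin 2 → ℂ) r ⊆ κ.target) : Reg1 ∞ 0 (gf κ r hr) := by
  rw [reg1_iff_at]
  intro x
  by_cases hx : x ∈ Kf κ r
  · have hxs := Kf_source hr hrt hx
    by_cases h1 : κ x 1 = 0
    · exact at1_zero.congr (gf_zero_ev hκ hr hxs h1)
    · refine At1.congr ?_ (gf_ne_ev hr hxs h1)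
      exact At1.smul (chi0_at hκ hr hxs) ((wf_at hκ hr hxs h1).dbar infty_add_one_le)
  · exact at1_zero.congr (gf_off_ev hκ hr hrt hx)

theorem gf_compact (hκ : RegChart Z p κ) {r : ℝ} (hr : 0 < r)
    (hrt : ball (0 : Fin 2 → ℂ) r ⊆ κ.target) : HasCompactSupport (gf κ r hr) :=
  HasCompactSupport.intro (Kf_compact hr hrt) fun x hx => gf_off hκ hr hx

theorem dbar1_zero_ev {g : M → Fin 2 → ℂ} {x : M} (h : g =ᶠ[𝓝 x] fun _ _ => 0) :
    ∀ᶠ y in 𝓝 x, dbar1 0 g y = 0 := by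
  filter_upwards [eventually_eventually_nhds.2 h] with y hy
  rw [dbar1_congr hy]
  simp

theorem gf_supp (hκ : RegChart Z p κ) {r : ℝ} (hr : 0 < r)
    (hrt : ball (0 : Fin 2 → ℂ) r ⊆ κ.target) : ∀ x ∈ tsupport (dbar1 0 (gf κ r hr)), x ∉ Z := by
  intro x hx hxZ
  have key : ∀ᶠ y in 𝓝 x, dbar1 0 (gf κ r hr) y = 0 := by
    by_cases hxK : x ∈ Kf κ r
    · have hxs := Kf_source hr hrt hxK
      by_cases h1 : κ x 1 = 0
      · exact dbar1_zero_ev (gf_zero_ev hκ hr hxs h1)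
      · have h0 : κ x 0 = 0 := (hκ.iff x hxs).1 hxZ
        have h2 := gf_ne_ev' hr hxs h1 h0
        have h3 : ∀ᶠ y in 𝓝 x, At0 2 0 (wf κ r hr) y := by
          filter_upwards [(continuousAt_coord hxs 1).eventually_ne h1, κ.open_source.mem_nhds hxs]
            with y hy1 hy2
          exact (wf_at hκ hr hy2 hy1).of_le (WithTop.coe_le_coe.2 (le_top : (2 : ℕ∞) ≤ ⊤))
        filter_upwards [eventually_eventually_nhds.2 h2, h3] with y hy1 hy2
        rw [dbar1_congr hy1, dbar1_dbar0 hy2]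
    · exact dbar1_zero_ev (gf_off_ev hκ hr hrt hxK)
  exact (notMem_tsupport_iff_eventuallyEq.2 key) hx

end model


/-! ### the pole function -/

theorem f_continuous (D : XTData M) : Continuous D.f := by
  have h1 : Continuous fun x => (D.f x : ℂ) := D.f_smooth.continuous
  have h2 := Complex.continuous_re.comp h1
  simpa [Function.comp_def] using h2

section pole

variable [T2Space M] {D : XTData M} {ι : Type} [Fintype ι] [DecidableEq ι] {L : LB M ι}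
  {α : M → EuclideanSpace ℂ ι}

theorem pair_zero (w : EuclideanSpace ℂ ι) : H692.pair (0 : EuclideanSpace ℂ ι) w = 0 := by
  simp [H692.pair]

/-- the zero set -/
def Zs (α : M → EuclideanSpace ℂ ι) : Set M := {x | α x = 0}

/-- real-differentiability along `Z` from smoothness -/
theorem diffAlong_of_at0 {Z : Set M} {Φ : M → ℂ} {q : M} (h : At0 1 0 Φ q) : DiffAlong Z Φ q := by
  refine ⟨fun z => Φ ((chartAt C2 q).symm z), ?_, ?_⟩
  · have h1 := h.diff le_rfl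
    rw [LB.loc0_zero] at h1
    exact h1
  · filter_upwards [(chartAt C2 q).open_source.mem_nhds (mem_chart_source C2 q)] with x hx _
    change Φ x = Φ ((chartAt C2 q).symm (chartAt C2 q x))
    rw [(chartAt C2 q).left_inv hx]

/-- a function with `∂̄ = 0` at the points of a disc is holomorphic along the disc -/
theorem analyticAt_dsc {Z : Set M} {q : M} {κ : OpenPartialHomeomorph M (Fin 2 → ℂ)}
    (hκ : RegChart Z q κ) {s : M → ℂ}
    (h : ∀ᶠ x in 𝓝 q, x ∈ Z → At0 1 0 s x ∧ dbar0 0 s x = 0) :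
    AnalyticAt ℂ (fun t => s (dsc κ t)) 0 := by
  obtain ⟨r, hr0, hr⟩ := hκ.exists_ball
  rw [Complex.analyticAt_iff_eventually_differentiableAt]
  have h1 : Tendsto (dsc κ) (𝓝 0) (𝓝 q) := by
    have h2 := ((hκ.continuousOn_dsc hr).continuousAt (ball_mem_nhds _ hr0)).tendsto
    rwa [hκ.dsc_zero] at h2
  filter_upwards [h1.eventually h, ball_mem_nhds _ hr0] with t ht1 ht2
  obtain ⟨h3, h4⟩ := ht1 (hκ.dsc_mem hr ht2)
  have h5 : MDifferentiableAt 𝓘(ℂ, C2) 𝓘(ℂ, ℂ) s (dsc κ t) := mdiff_of_dbar0 h3 h4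
  have h6 : MDifferentiableAt 𝓘(ℂ, ℂ) 𝓘(ℂ, C2) (dsc κ) t :=
    Amb.mdiff_dsc hκ (hr (vec_mem_ball ht2))
  have h7 : MDifferentiableAt 𝓘(ℂ, ℂ) 𝓘(ℂ, ℂ) (fun t => s (dsc κ t)) t :=
    MDifferentiableAt.comp (g := s) t h5 h6
  exact mdifferentiableAt_iff_differentiableAt.1 h7

/-- pole functions from solvability of `∂̄u = g` along `Z` (general form; for compact `M` the limit
condition is void) -/
theorem exists_amb_gen {Z : Set M} (hclosed : IsClosed Z) (hc : (Z \ Reg Z).Countable)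
    (solve : ∀ g : M → Fin 2 → ℂ, Reg1 ∞ 0 g → HasCompactSupport g →
      (∀ x ∈ tsupport (dbar1 0 g), x ∉ Z) → ∃ (u : M → ℂ) (c : ℂ), Reg0 ∞ 0 u ∧
        (∀ x ∈ Z, dbar0 0 u x = g x) ∧ Tendsto u (cocompact M ⊓ 𝓟 Z) (𝓝 c))
    {p : M} (hp : p ∈ Reg Z) :
    ∃ (Φ : M → ℂ) (c₀ : ℂ), Amb Z p Φ c₀ ∧ ∀ q ∈ Z, q ≠ p → DiffAlong Z Φ q := by
  obtain ⟨κ, hκ⟩ := hp
  obtain ⟨r, hr, hrt⟩ := hκ.exists_ball
  obtain ⟨u, c, hu, hduZ, hlim⟩ := solve (gf κ r hr) (gf_reg hκ hr hrt)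
    (gf_compact hκ hr hrt) (gf_supp hκ hr hrt)
  set Φ : M → ℂ := fun x => vf κ r hr x - u x with hΦ
  have huat : ∀ x, At0 ∞ 0 u x := fun x => hu.at x
  -- regularity off `p`
  have hreg : ∀ x ∈ Z, x ≠ p → At0 ∞ 0 Φ x ∧ dbar0 0 Φ x = 0 := by
    intro x hx hxp
    by_cases hxK : x ∈ Kf κ r
    · have hxs := Kf_source hr hrt hxK
      have h0 : κ x 0 = 0 := (hκ.iff x hxs).1 hx
      have h1 : κ x 1 ≠ 0 := by
        intro h1
        apply hxp
        apply κ.injOn hxs hκ.mem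
        rw [hκ.zero]
        funext i
        fin_cases i
        · exact h0
        · exact h1
      have hw := wf_at hκ hr hxs h1
      have hv : At0 ∞ 0 (vf κ r hr) x := hw.congr (vf_ev' hr hxs h0)
      refine ⟨hv.sub (huat x), ?_⟩
      have h2 := dbar0_sub (hv.of_le (by simp)) ((huat x).of_le (m := 1) (by simp))
      rw [hΦ, h2, hduZ x hx, dbar0_congr (vf_ev' hr hxs h0), (gf_ne_ev' hr hxs h1 h0).self_of_nhds,
        sub_self]
    · have hv : At0 ∞ 0 (vf κ r hr) x := at0_zero.congr (vf_off_ev hr hrt hxK)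
      refine ⟨hv.sub (huat x), ?_⟩
      have h2 := dbar0_sub (hv.of_le (by simp)) ((huat x).of_le (m := 1) (by simp))
      rw [hΦ, h2, hduZ x hx, dbar0_congr (vf_off_ev hr hrt hxK), gf_off hκ hr hxK]
      simp
  have hreg1 : ∀ x ∈ Z, x ≠ p → At0 1 0 Φ x ∧ dbar0 0 Φ x = 0 := fun x hx hxp =>
    ⟨(hreg x hx hxp).1.of_le (by simp), (hreg x hx hxp).2⟩
  refine ⟨Φ, -c, ⟨hclosed, hc, ?_, ?_, ?_, ?_⟩, fun q hq hqp => diffAlong_of_at0 (hreg1 q hq hqp).1⟩
  · rintro x ⟨hx1, hx2⟩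
    exact (hreg x hx1 hx2).1.continuousAt.continuousWithinAt
  · intro q hq hqp
    obtain ⟨κ', hκ'⟩ := Cmp_sub hq
    refine ⟨κ', hκ', analyticAt_dsc hκ' ?_⟩
    filter_upwards [isOpen_ne.mem_nhds hqp] with x hx1 hx2
    exact hreg1 x hx2 hx1
  · refine ⟨κ, hκ, fun t => -u (dsc κ t), ?_, ?_⟩
    · have h1 : ∀ᶠ x in 𝓝 p, x ∈ Z → At0 1 0 u x ∧ dbar0 0 u x = 0 := by
        have h2 : gf κ r hr =ᶠ[𝓝 p] fun _ _ => 0 := gf_zero_ev hκ hr hκ.mem (by rw [hκ.zero]; rfl)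
        filter_upwards [h2] with x hx hxZ
        refine ⟨(huat x).of_le (by simp), ?_⟩
        rw [hduZ x hxZ, hx]
        rfl
      exact (analyticAt_dsc hκ h1).neg
    · have h1 : ∀ᶠ t in 𝓝[≠] (0 : ℂ), ‖t‖ < r / 4 := by
        refine Eventually.filter_mono nhdsWithin_le_nhds ?_
        have : ball (0 : ℂ) (r / 4) ∈ 𝓝 (0 : ℂ) := ball_mem_nhds _ (by positivity)
        filter_upwards [this] with t ht
        simpa using ht
      filter_upwards [h1] with t ht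
      have ht' : t ∈ ball (0 : ℂ) r := by
        rw [mem_ball_zero_iff]
        linarith
      have h2 := hκ.map_dsc hrt ht'
      have h3 := hκ.dsc_mem_source hrt ht'
      have h4 : vf κ r hr (dsc κ t) = t⁻¹ := by
        rw [vf, if_pos h3, wf, h2]
        change chi r hr 0 * (chi r hr t * t⁻¹) = t⁻¹
        rw [chi_one hr ht, chi_one hr (by rw [norm_zero]; positivity), one_mul, one_mul]
      rw [hΦ]
      simp only [h4]
      ring
  · -- the limit at infinity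
    have h2 : Tendsto (vf κ r hr) (cocompact M ⊓ 𝓟 Z) (𝓝 0) := by
      refine Tendsto.congr' ?_ tendsto_const_nhds
      have h3 : (Kf κ r)ᶜ ∈ cocompact M ⊓ 𝓟 Z :=
        mem_inf_of_left (Kf_compact hr hrt).compl_mem_cocompact
      filter_upwards [h3] with x hx
      exact (vf_off hr hx).symm
    have h3 := h2.sub hlim
    rwa [zero_sub] at h3

/-- the compact case -/
theorem exists_amb_compact [CompactSpace M] {Z : Set M} (hclosed : IsClosed Z)
    (hc : (Z \ Reg Z).Countable)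
    (solve : ∀ g : M → Fin 2 → ℂ, Reg1 ∞ 0 g → (∀ x ∈ tsupport (dbar1 0 g), x ∉ Z) →
      ∃ u : M → ℂ, Reg0 ∞ 0 u ∧ ∀ x ∈ Z, dbar0 0 u x = g x)
    {p : M} (hp : p ∈ Reg Z) :
    ∃ Φ : M → ℂ, Amb Z p Φ 0 ∧ ∀ q ∈ Z, q ≠ p → DiffAlong Z Φ q := by
  have hbot : cocompact M ⊓ 𝓟 Z = ⊥ := by rw [cocompact_eq_bot, bot_inf_eq]
  obtain ⟨Φ, c, h1, h2⟩ := exists_amb_gen hclosed hc (fun g hg _ hgs => by
    obtain ⟨u, hu1, hu2⟩ := solve g hg hgs
    exact ⟨u, 0, hu1, hu2, by rw [hbot]; exact tendsto_bot⟩) hp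
  exact ⟨Φ, ⟨h1.closed, h1.count, h1.cont, h1.hol, h1.pole, by rw [hbot]; exact tendsto_bot⟩, h2⟩

/-- **compact case**: if `∂̄u = g` can be solved along `Z` then for every regular point `p` the
closure of its component in the regular part is an embedded projective line -/
theorem exists_embP1_compact [CompactSpace M] {Z : Set M} (hclosed : IsClosed Z)
    (hc : (Z \ Reg Z).Countable)
    (solve : ∀ g : M → Fin 2 → ℂ, Reg1 ∞ 0 g → (∀ x ∈ tsupport (dbar1 0 g), x ∉ Z) →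
      ∃ u : M → ℂ, Reg0 ∞ 0 u ∧ ∀ x ∈ Z, dbar0 0 u x = g x)
    {p : M} (hp : p ∈ Reg Z) :
    ∃ φ : H338.EmbP1 M, φ.image = closure (Cmp Z p) ∧ p ∈ φ.image ∧ φ.image ⊆ Z ∧
      ∀ q ∈ φ.image, ∃ κ, RegChart φ.image q κ := by
  have hlc : LocallyCompactSpace M := ChartedSpace.locallyCompactSpace C2 M
  have hsc : SecondCountableTopology M := ChartedSpace.secondCountable_of_sigmaCompact C2 M
  obtain ⟨Φ, hA, hΦ⟩ := exists_amb_compact hclosed hc solve hp
  exact exists_embP1_reg hA hΦ fun G => not_isPlane_compact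

theorem exists_amb (hα : Reg0 ∞ 0 α) (hout : ∃ R : ℝ, ∀ x, R ≤ D.f x → α x ≠ 0)
    (hP : H692.PoleStatement D L α) (hc : (Zs α \ Reg (Zs α)).Countable)
    {p : M} (hp : p ∈ Reg (Zs α)) :
    ∃ (Φ : M → ℂ) (c₀ : ℂ), Amb (Zs α) p Φ c₀ ∧ ∀ q ∈ Zs α, q ≠ p → DiffAlong (Zs α) Φ q := by
  have hcα : Continuous α := hα.continuous
  have hclosed : IsClosed (Zs α) := isClosed_singleton.preimage hcα
  refine exists_amb_gen hclosed hc (fun g hg hgc hgs => ?_) hp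
  obtain ⟨u, η, c, hu, hη, hη2, hdu, hlim1, hlim2⟩ := hP g hg hgc (fun x hx hx0 => hgs x hx hx0)
  refine ⟨u, c, hu, ?_, ?_⟩
  · intro x hx
    funext i
    have hx0 : α x = 0 := hx
    rw [hdu x i, hx0, pair_zero, add_zero]
  · obtain ⟨R, hR⟩ := hout
    have hF : cocompact M ⊓ 𝓟 (Zs α) ≤ comap D.f atBot := by
      intro S hS
      obtain ⟨T, hT, hTS⟩ := mem_comap.1 hS
      obtain ⟨b, hb⟩ := mem_atBot_sets.1 hT
      have h1 : (D.f ⁻¹' Icc b R)ᶜ ∈ cocompact M := (D.f_proper b R).compl_mem_cocompact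
      refine mem_of_superset (inter_mem_inf h1 (mem_principal_self _)) ?_
      rintro x ⟨hx1, hx2⟩
      apply hTS
      apply hb
      by_contra hcon
      push Not at hcon
      apply hx1
      refine ⟨hcon.le, ?_⟩
      by_contra hcon2
      push Not at hcon2
      exact hR x hcon2.le hx2
    exact hlim2.mono_left hF

end pole

end

end Vale.Agent.P267.H331
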