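import Vale.Agent.P267.H331.FLEnd
import Vale.Agent.P267.H535.Sing
import Vale.Agent.P267.H181.Frm

/-! P267 / H331 (helper331): `CURVES` on the infinite cyclic cover. Every point of `{α = 0}` lies on
an embedded projective line contained in `{α = 0}`. -/

namespace Vale.Agent.P267.H331

open Set Filter Topology Metric
open scoped Manifold ContDiff
open Vale.Agent.P267.FL Vale.Agent.P267.XT

theorem curve_final (M : Type) [TopologicalSpace M] [T2Space M] [ChartedSpace C2 M]
    [IsManifold 𝓘(ℂ, C2) ω M] (D : XTData M) (ι : Type) [Fintype ι] [DecidableEq ι] (L : LB M ι)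
    (a : M → Fin 2 → ℂ) (i₀ : ι) (R : ℝ) (α : M → EuclideanSpace ℂ ι) (d d' : ℝ)
    (h : H692.XtCone D L a i₀ R α d d') (hP : H692.PoleStatement D L α)
    (hE : H692.EndStatement D α) :
    ∀ x, α x = 0 → ∃ φ : H338.EmbP1 M, x ∈ φ.image ∧ ∀ y ∈ φ.image, α y = 0 := by
  have hF : Frames L a := H181.hasFrames h.hol
  have hsig : SigmaCompactSpace M := sigmaCompact D
  have hsc : SecondCountableTopology M := ChartedSpace.secondCountable_of_sigmaCompact C2 M
  have hA := exists_local L hF h.α_sec h.α_reg h.α_hol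
  refine curve_core D L hF h.α_reg h.α_sec h.α_hol h.α_dense ⟨R, h.α_out⟩ ?_ hP hE
  refine H535.countable_sing fun p hp => ?_
  obtain ⟨g, hg1, hg2⟩ := hA p
  refine ⟨g, hg1, hg2, ?_⟩
  rw [Filter.Frequently]
  intro hcon
  have h3 : ∀ᶠ y in 𝓝 p, α y = 0 := by
    filter_upwards [hcon, hg2] with y hy1 hy2
    exact hy2.2 (not_not.1 hy1)
  obtain ⟨y, hy1, hy2⟩ := mem_closure_iff_nhds.1 (h.α_dense p) _ h3
  exact hy2 hy1

end Vale.Agent.P267.H331
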