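import Vale.Agent.P267.H338.Iface

/-!
# P267: reparametrisation of an embedded projective line

Every point of the image of an `EmbP1` is the value at `0` of another parametrisation with the
same image (translation, or exchange of the two coordinate planes).
-/

open scoped Manifold ContDiff Topology
open Vale.Agent.P272.K Set Filter

noncomputable section

namespace Vale.Agent.P267.H338

namespace EmbP1

variable {M : Type*} [TopologicalSpace M] [ChartedSpace (Cm 2) M] (φ : EmbP1 M)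

/-- the second coordinate plane of the translated curve -/
def tr₁ (a : ℂ) (w : ℂ) : M := if w = 0 then φ.f₁ 0 else φ.f₀ (w⁻¹ + a)

theorem tr₁_ne (a : ℂ) {w : ℂ} (hw : w ≠ 0) : φ.tr₁ a w = φ.f₀ (w⁻¹ + a) := if_neg hw

theorem tr₁_ev_ne (a : ℂ) {w : ℂ} (hw : w ≠ 0) :
    φ.tr₁ a =ᶠ[𝓝 w] φ.f₀ ∘ fun v => v⁻¹ + a := by
  filter_upwards [isOpen_ne.mem_nhds hw] with v hv
  exact φ.tr₁_ne a hv

theorem tr₁_ev_zero (a : ℂ) : φ.tr₁ a =ᶠ[𝓝 0] φ.f₁ ∘ fun v => v / (1 + a * v) := by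
  have h1 : ∀ᶠ v : ℂ in 𝓝 0, 1 + a * v ≠ 0 := by
    have hc : ContinuousAt (fun v : ℂ => 1 + a * v) 0 := by fun_prop
    exact hc.eventually_ne (by simp)
  filter_upwards [h1] with v hv
  rcases eq_or_ne v 0 with rfl | h0
  · simp [tr₁]
  · have h2 : v / (1 + a * v) ≠ 0 := div_ne_zero h0 hv
    rw [φ.tr₁_ne a h0, Function.comp_apply, φ.glue' _ h2, inv_div]
    congr 1
    field_simp

theorem hasDeriv_inv_add (a : ℂ) {w : ℂ} (hw : w ≠ 0) :
    HasDerivAt (fun v : ℂ => v⁻¹ + a) (-(w ^ 2)⁻¹) w := (hasDerivAt_inv hw).add_const a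

theorem hasDeriv_moeb (a : ℂ) : HasDerivAt (fun v : ℂ => v / (1 + a * v)) 1 0 := by
  have h1 : HasDerivAt (fun v : ℂ => 1 + a * v) a 0 := by
    simpa using ((hasDerivAt_id (0 : ℂ)).const_mul a).const_add 1
  have h2 := (hasDerivAt_id (0 : ℂ)).div h1 (by simp)
  have h3 : (1 * (1 + a * 0) - id 0 * a) / (1 + a * 0) ^ 2 = (1 : ℂ) := by simp
  rw [h3] at h2
  exact h2

theorem mfderiv_inj_comp {f : ℂ → M} (hf : MDifferentiable 𝓘(ℂ) 𝓘(ℂ, Cm 2) f)
    (hi : ∀ z, Function.Injective (mfderiv 𝓘(ℂ) 𝓘(ℂ, Cm 2) f z)) {g : ℂ → ℂ} {c z : ℂ}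
    (hg : HasDerivAt g c z) (hc : c ≠ 0) :
    Function.Injective (mfderiv 𝓘(ℂ) 𝓘(ℂ, Cm 2) (f ∘ g) z) := by
  have hgd : MDifferentiableAt 𝓘(ℂ) 𝓘(ℂ) g z := hg.differentiableAt.mdifferentiableAt
  rw [mfderiv_comp z (hf (g z)) hgd, mfderiv_eq_fderiv]
  have h3 : fderiv ℂ g z = ContinuousLinearMap.toSpanSingleton ℂ c := hg.hasFDerivAt.fderiv
  intro u v huv
  have h1 := hi (g z) huv
  have h2 : fderiv ℂ g z u = fderiv ℂ g z v := h1
  rw [h3] at h2
  exact mul_right_cancel₀ (M₀ := ℂ) hc h2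

/-- translation by `a` in the affine coordinate -/
def trans (a : ℂ) : EmbP1 M where
  f₀ := fun z => φ.f₀ (z + a)
  f₁ := φ.tr₁ a
  holo₀ := by
    have h : MDifferentiable 𝓘(ℂ) 𝓘(ℂ) (fun z : ℂ => z + a) :=
      (differentiable_id.add_const a).mdifferentiable
    exact φ.holo₀.comp h
  holo₁ := by
    intro w
    rcases eq_or_ne w 0 with rfl | hw
    · refine MDifferentiableAt.congr_of_eventuallyEq ?_ (φ.tr₁_ev_zero a)
      exact MDifferentiableAt.comp (I' := 𝓘(ℂ)) _ (φ.holo₁ _)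
        (hasDeriv_moeb a).differentiableAt.mdifferentiableAt
    · refine MDifferentiableAt.congr_of_eventuallyEq ?_ (φ.tr₁_ev_ne a hw)
      exact MDifferentiableAt.comp (I' := 𝓘(ℂ)) _ (φ.holo₀ _)
        (hasDeriv_inv_add a hw).differentiableAt.mdifferentiableAt
  glue := by
    intro z hz
    rw [φ.tr₁_ne a (inv_ne_zero hz), inv_inv]
  inj := by
    intro z w h
    exact add_right_cancel (φ.inj h)
  ninf := by
    rintro ⟨z, hz⟩
    apply φ.ninf
    refine ⟨z + a, ?_⟩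
    rw [show φ.f₀ (z + a) = φ.tr₁ a 0 from hz]
    exact if_pos rfl
  imm₀ := by
    intro z
    exact mfderiv_inj_comp φ.holo₀ φ.imm₀ ((hasDerivAt_id z).add_const a) one_ne_zero
  imm₁ := by
    intro w
    rcases eq_or_ne w 0 with rfl | hw
    · rw [(φ.tr₁_ev_zero a).mfderiv_eq]
      exact mfderiv_inj_comp φ.holo₁ φ.imm₁ (hasDeriv_moeb a) one_ne_zero
    · rw [(φ.tr₁_ev_ne a hw).mfderiv_eq]
      exact mfderiv_inj_comp φ.holo₀ φ.imm₀ (hasDeriv_inv_add a hw)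
        (neg_ne_zero.2 (inv_ne_zero (pow_ne_zero 2 hw)))

theorem trans_f₀ (a z : ℂ) : (φ.trans a).f₀ z = φ.f₀ (z + a) := rfl

theorem trans_f₁_zero (a : ℂ) : (φ.trans a).f₁ 0 = φ.f₁ 0 := if_pos rfl

theorem image_trans (a : ℂ) : (φ.trans a).image = φ.image := by
  apply Set.Subset.antisymm
  · rintro _ (⟨z, rfl⟩ | rfl)
    · exact φ.mem_image_f₀ _
    · rw [φ.trans_f₁_zero a]
      exact φ.mem_image_f₁ 0
  · rintro _ (⟨z, rfl⟩ | rfl)
    · refine Or.inl ⟨z - a, ?_⟩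
      change φ.f₀ (z - a + a) = φ.f₀ z
      rw [sub_add_cancel]
    · refine Or.inr ?_
      exact (φ.trans_f₁_zero a).symm

/-- **(C6)** every point of the curve is the value at `0` of a parametrisation -/
theorem reparam {p : M} (hp : p ∈ φ.image) : ∃ ψ : EmbP1 M, ψ.image = φ.image ∧ ψ.f₀ 0 = p := by
  rcases hp with ⟨a, rfl⟩ | rfl
  · exact ⟨φ.trans a, φ.image_trans a, by rw [trans_f₀, zero_add]⟩
  · exact ⟨φ.swap, φ.image_swap, rfl⟩

end EmbP1

end Vale.Agent.P267.H338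

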