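import Vale.Agent.P267.H331.Final
import Vale.Agent.P267.H456.Assembly

/-! P267 / H331 (helper331): the final theorem of block D, part CURVES, in the form of the assembly -/

namespace Vale.Agent.P267.H331

theorem curve : Asm.CurveThm := fun M _ _ _ _ D ι _ _ L a i₀ R α d d' h hP hE =>
  curve_final M D ι L a i₀ R α d d' h hP hE

end Vale.Agent.P267.H331
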